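import Mathlib

/-!
# P076N : multiscale amplitudes, valid structures (notes/P076/alln.md, sections 1, 2, 6)

`D` = scale ratio (`D = 2 ^ N`), `K` levels.  A node of level `i` is a tube of width `D ^ i` and length `D ^ (2 i)`.
-/

set_option linter.all false

open Finset
open scoped RealInnerProductSpace

namespace Vale.Agent.P076N

noncomputable section

abbrev Zv (m : ℕ) := Fin m → ℤ

abbrev Vc (m : ℕ) := EuclideanSpace ℝ (Fin m)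

/-- a flat: frame and base point -/
abbrev Pl (m : ℕ) := (Vc m ≃ₗᵢ[ℝ] Vc m) × Vc m

variable {m : ℕ}

/-- lattice point -/
def toV (k : Zv m) : Vc m := WithLp.toLp 2 fun i => (k i : ℝ)

/-- coordinatewise floor division -/
def dv (q : ℤ) (k : Zv m) : Zv m := fun i => k i / q

/-- `v` is in the strip of width `ρ` around the `k`-flat `p` (normal coordinates: `k ≤ l`) -/
def InS (p : Pl m) (k : ℕ) (ρ : ℝ) (v : Vc m) : Prop := ∀ l : Fin m, k ≤ (l : ℕ) → |p.1 (v - p.2) l| ≤ ρ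

/-- nodes: cap, position, time -/
@[ext] structure Nd (m : ℕ) where
  c : Zv m
  o : Zv m
  T : ℤ

instance : DecidableEq (Nd m) := Classical.decEq _

/-- the ball of a node -/
def ball (D : ℕ) (S : Nd m) : Nd m := ⟨S.c, dv D S.o, S.T⟩

/-- the node of the next level with cap `c'` through the ball `b` -/
def parB (D : ℕ) (b : Nd m) (c' : Zv m) : Nd m :=
  ⟨c', fun l => b.o l - (b.T * (c' l - D * b.c l)) / (D : ℤ) ^ 2, b.T / (D : ℤ) ^ 2⟩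

def par (D : ℕ) (S : Nd m) (c' : Zv m) : Nd m := parB D (ball D S) c'

/-- the caps `r` levels below `c` -/
def below (D r : ℕ) (c : Zv m) : Finset (Zv m) :=
  Fintype.piFinset fun l => Finset.Ico ((D : ℤ) ^ r * c l) ((D : ℤ) ^ r * (c l + 1))

/-- the level `i` cap of the finest cap `τ` -/
def cap (D K i : ℕ) (τ : Zv m) : Zv m := dv ((D : ℤ) ^ (K - i)) τ

/-- the velocity of a cap of level `i` -/
def vel (D i : ℕ) (c : Zv m) : Vc m := ((D : ℝ) ^ i)⁻¹ • toV c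

/-- **multiscale amplitudes**: `a i S U` is the size on the node `S` of level `i` of the part of the
wave with finest caps in `U` below `S.c` -/
structure Amp (m D K : ℕ) (C Q : ℝ) where
  a : ℕ → Nd m → Finset (Zv m) → ℝ
  nn : ∀ i S U, 0 ≤ a i S U
  loc : ∀ i S U, a i S U = a i S (U.filter fun τ => cap D K i τ = S.c)
  emp : ∀ i S, a i S ∅ = 0
  sub : ∀ i S U U', Disjoint U U' → a i S (U ∪ U') ≤ a i S U + a i S U'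
  l1 : ∀ i < K, ∀ S U, a i S U ≤ C * ∑ c' ∈ below D 1 S.c, a (i + 1) (par D S c') U
  bk : ∀ i < K, ∀ k ≤ m, ∀ (p : Pl m) (n : Vc m) (b : Nd m) (U : Finset (Zv m)) (Z : Finset (Nd m)),
    (∀ τ ∈ U, cap D K i τ = b.c → InS p k ((2 * m + 2) / (D : ℝ) ^ (i + 1)) (vel D K τ)) →
    (∀ S ∈ Z, ball D S = b ∧ InS (p.1, n) k 1 (toV S.o)) →
    ∑ S ∈ Z, a i S U ^ 2 ≤ C * (D : ℝ) ^ k * ∑ c' ∈ below D 1 b.c, a (i + 1) (parB D b c') U ^ 2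
  top : ∀ (Z : Finset (Nd m)), (∀ S ∈ Z, S.T = 0) →
    (∑ S ∈ Z, a K S {S.c} ^ 2) * (D : ℝ) ^ (K * m) ≤ C * Q

/-- the chain of nodes from `S` (level `j`) along the finest cap `τ`; `ch .. i` has level `j + i` -/
def ch (D K j : ℕ) (S : Nd m) (τ : Zv m) : ℕ → Nd m
  | 0 => S
  | i + 1 => par D (ch D K j S τ i) (cap D K (j + i + 1) τ)

/-- finest caps whose chain from `S` (level `j`) is alive -/
def UU (D K : ℕ) (V : ℕ → Finset (Nd m)) (j : ℕ) (S : Nd m) : Finset (Zv m) :=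
  (below D (K - j) S.c).filter fun τ => ∀ i ∈ Finset.Icc 1 (K - j), ch D K j S τ i ∈ V (j + i)

/-- alive children -/
def GG (D : ℕ) (V : ℕ → Finset (Nd m)) (i : ℕ) (S : Nd m) : Finset (Zv m) :=
  (below D 1 S.c).filter fun c' => par D S c' ∈ V (i + 1)

/-- alive flags -/
def flags (D K : ℕ) (V : ℕ → Finset (Nd m)) : Finset (Nd m × Zv m) :=
  (V 0).biUnion fun x => (UU D K V 0 x).image fun τ => (x, τ)

/-- **valid structures** -/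
structure Valid {D K : ℕ} {C Q : ℝ} (F : Amp m D K C Q) (V : ℕ → Finset (Nd m)) (A Γ : ℕ → ℝ) : Prop where
  ne : (V 0).Nonempty
  pos : ∀ i ≤ K, 0 < A i
  amp : ∀ i ≤ K, ∀ S ∈ V i, A i ≤ F.a i S (UU D K V i S) ∧ F.a i S (UU D K V i S) ≤ 2 * A i
  one : ∀ i < K, 1 ≤ Γ i
  deg : ∀ i < K, ∀ S ∈ V i, Γ i ≤ #(GG D V i S) ∧ (#(GG D V i S) : ℝ) ≤ 2 * Γ i

/-- the atom (ball of radius `D ^ (2 w)` in the picture of level `j`) of a node of level `j + w` -/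
def atom (D w : ℕ) (S : Nd m) : Nd m :=
  ⟨dv ((D : ℤ) ^ w) S.c, fun l => (S.o l + S.T * (S.c l - (D : ℤ) ^ w * (S.c l / (D : ℤ) ^ w))) / (D : ℤ) ^ w, S.T⟩

/-- the node `S` of level `j + w` is in the strip of its atom -/
def Str (D k j w : ℕ) (pl : Nd m → Pl m) (S : Nd m) : Prop :=
  InS (pl (atom D w S)) k ((m + 2) / (D : ℝ) ^ (j + w)) (vel D (j + w) S.c)

/-- alive atoms lie in one class mod 3 -/
def Cons (D : ℕ) (V : ℕ → Finset (Nd m)) (j w : ℕ) : Prop :=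
  ∃ e : Zv m, ∀ S ∈ V (j + w), ∀ l, (atom D w S).o l % 3 = e l

/-- narrow -/
def Nar (D : ℕ) (V : ℕ → Finset (Nd m)) (k j w : ℕ) : Prop :=
  ∃ pl : Nd m → Pl m, ∀ S ∈ V (j + w), Str D k j w pl S

open Classical in
/-- broad -/
def Brd (D K : ℕ) (V : ℕ → Finset (Nd m)) (β : ℝ) (k j w : ℕ) : Prop := ∀ pl : Nd m → Pl m,
  (#((flags D K V).filter fun ω => Str D k j w pl (ch D K 0 ω.1 ω.2 (j + w))) : ℝ) ≤ β * #(flags D K V)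

/-- **[VS]** valid structures with types -/
def StVS (m : ℕ) : Prop := ∀ (K : ℕ) (C : ℝ) (Tr : Finset (ℕ × ℕ × ℕ)) (η : ℝ), 1 ≤ C → 0 < η →
  ∃ c : ℝ, 0 < c ∧ ∃ N₀ : ℕ, ∀ N ≥ N₀, ∀ (Q : ℝ) (F : Amp m (2 ^ N) K C Q) (V₀ : ℕ → Finset (Nd m)) (α : ℝ), 0 < α →
    (V₀ 0).Nonempty → (∀ x ∈ V₀ 0, α ≤ F.a 0 x (UU (2 ^ N) K V₀ 0 x)) →
    (∀ S ∈ V₀ K, F.a K S {S.c} ≤ α * ((2 : ℝ) ^ N) ^ K) →
    ∃ (V : ℕ → Finset (Nd m)) (A Γ : ℕ → ℝ), (∀ i, V i ⊆ V₀ i) ∧ Valid F V A Γ ∧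
      α ≤ ((2 : ℝ) ^ N) ^ η * A 0 ∧ (#(V₀ 0) : ℝ) ≤ ((2 : ℝ) ^ N) ^ η * #(V 0) ∧
      ∀ t ∈ Tr, t.2.1 + t.2.2 ≤ K → 1 ≤ t.2.2 → Cons (2 ^ N) V t.2.1 t.2.2 ∧
        (Nar (2 ^ N) V t.1 t.2.1 t.2.2 ∨ Brd (2 ^ N) K V (((2 : ℝ) ^ N) ^ (-c)) t.1 t.2.1 t.2.2)

/-! ## the three theorems for amplitudes -/

/-- the position of a root -/
def xpos (S : Nd m) : Zv m := fun l => S.o l + S.T * S.c l

/-- roots -/
def Rts {D K : ℕ} {C Q : ℝ} (F : Amp m D K C Q) (X : Finset (Nd m)) (α : ℝ) : Prop :=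
  ∀ x ∈ X, (∀ l, |x.c l| ≤ 10) ∧ 0 ≤ x.T ∧ x.T < (D : ℤ) ^ (2 * K) ∧ α ≤ F.a 0 x (below D K x.c)

/-- graph condition -/
def GphA (B : ℝ) (X : Finset (Nd m)) : Prop := ∀ y, (#(X.filter fun x => xpos x = y) : ℝ) ≤ B

/-- graph condition in each time window of length `ℓ` -/
def WGA (B : ℝ) (ℓ : ℤ) (X : Finset (Nd m)) : Prop :=
  ∀ y s, (#(X.filter fun x => xpos x = y ∧ x.T / ℓ = s) : ℝ) ≤ B

/-- small mass in every plate of relative thickness `D ^ (c K)` -/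
def NoPl {D K : ℕ} {C Q : ℝ} (F : Amp m D K C Q) (c : ℝ) : Prop :=
  ∀ (ν : Vc m) (v b : ℝ) (Z : Finset (Nd m)), ‖ν‖ = 1 →
    (∀ S ∈ Z, S.T = 0 ∧ (∀ l, |S.o l| ≤ 100 * (D : ℤ) ^ K) ∧
      |⟪ν, vel D K S.c⟫ - v| ≤ (D : ℝ) ^ (c * K) / (D : ℝ) ^ K ∧ |⟪ν, toV S.o⟫ - b| ≤ (D : ℝ) ^ (c * K)) →
    (∑ S ∈ Z, F.a K S {S.c} ^ 2) * (D : ℝ) ^ (K * m) ≤ C * (D : ℝ) ^ (-(c * K)) * Q

/-- **[AT1]** the lossy bound for graphs -/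
def AT1 (m : ℕ) : Prop := ∀ ε : ℝ, 0 < ε → ∃ K : ℕ, 1 ≤ K ∧ ∀ C B : ℝ, 1 ≤ C → 1 ≤ B → ∃ N₀ : ℕ, ∀ N ≥ N₀,
  ∀ (Q : ℝ) (F : Amp m (2 ^ N) K C Q) (X : Finset (Nd m)) (α : ℝ), 0 ≤ α → Rts F X α → GphA B X →
    α ^ 2 * #X ≤ ((2 : ℝ) ^ N) ^ (K * (2 * m / (m + 1) + ε)) * Q

/-- **[AT2]** no plate: power gain -/
def AT2 (m : ℕ) : Prop := ∀ c : ℝ, 0 < c → ∃ κ : ℝ, 0 < κ ∧ ∃ K : ℕ, 1 ≤ K ∧ ∀ C B : ℝ, 1 ≤ C → 1 ≤ B →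
  ∃ N₀ : ℕ, ∀ N ≥ N₀, ∀ (Q : ℝ) (F : Amp m (2 ^ N) K C Q) (X : Finset (Nd m)) (α : ℝ), 0 ≤ α → Rts F X α →
    GphA B X → (∀ x ∈ X, ∀ l, |xpos x l| ≤ 4 * ((2 : ℤ) ^ N) ^ (2 * K)) → NoPl F c →
    α ^ 2 * #X ≤ ((2 : ℝ) ^ N) ^ (K * (2 * m / (m + 1) - κ)) * Q

/-- the profile `(1 + τ / s) ^ m (1 + τ / s ^ 2)` -/
def prof (m : ℕ) (s τ : ℝ) : ℝ := (1 + τ / s) ^ m * (1 + τ / s ^ 2)

/-- **[AT3]** window graphs: lossy bound; power gain unless the set is full and has the profile of a lattice -/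
def AT3 (m : ℕ) : Prop := ∀ η : ℝ, 0 < η → ∃ κ : ℝ, 0 < κ ∧ ∃ K : ℕ, 1 ≤ K ∧ ∀ C B : ℝ, 1 ≤ C → 1 ≤ B →
  ∃ N₀ : ℕ, ∀ N ≥ N₀, ∀ (Q : ℝ) (F : Amp m (2 ^ N) K C Q) (X : Finset (Nd m)) (α : ℝ), 0 ≤ α → Rts F X α →
    WGA B (((2 : ℤ) ^ N) ^ K) X →
    α ^ 2 * #X ≤ ((2 : ℝ) ^ N) ^ (K * (2 * (m + 1) / (m + 2) + η)) * Q ∧
    (((#X : ℝ) ≤ ((2 : ℝ) ^ N) ^ (K * (2 * m + 1 - η)) ∨ ∃ τ : ℕ, 1 ≤ τ ∧
      (#(X.image fun x => (dv τ (xpos x), x.T / τ)) : ℝ) * ((2 : ℝ) ^ N) ^ (K * η) *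
        prof m (((2 : ℝ) ^ N) ^ ((K : ℝ) / (m + 2))) τ ≤ #X) →
      α ^ 2 * #X ≤ ((2 : ℝ) ^ N) ^ (K * (2 * (m + 1) / (m + 2) - κ)) * Q)

/-- **[AT4]** window graphs, few caps of level `y ≤ K / (m + 2)` at every root: power gain -/
def AT4 (m : ℕ) : Prop := ∀ b : ℝ, 0 < b → ∀ K₀ : ℕ, ∃ κ : ℝ, 0 < κ ∧ ∃ K : ℕ, 1 ≤ K ∧ K₀ ≤ K ∧
  ∀ C B : ℝ, 1 ≤ C → 1 ≤ B → ∃ N₀ : ℕ, ∀ N ≥ N₀, ∀ (Q : ℝ) (F : Amp m (2 ^ N) K C Q) (X : Finset (Nd m)) (α : ℝ)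
    (y : ℕ) (W : Finset (Nd m)), 0 ≤ α → 1 ≤ y → (m + 2) * y ≤ K → WGA B (((2 : ℤ) ^ N) ^ K) X →
    (∀ x ∈ X, (∀ l, |x.c l| ≤ 10) ∧ 0 ≤ x.T ∧ x.T < ((2 : ℤ) ^ N) ^ (2 * K) ∧
      α ≤ F.a 0 x ((below (2 ^ N) K x.c).filter fun τ => ch (2 ^ N) K 0 x τ y ∈ W) ∧
      (#(((below (2 ^ N) K x.c).filter fun τ => ch (2 ^ N) K 0 x τ y ∈ W).image (cap (2 ^ N) K y)) : ℝ) ≤
        ((2 : ℝ) ^ N) ^ ((m : ℝ) * y - b * K)) →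
    α ^ 2 * #X ≤ ((2 : ℝ) ^ N) ^ (K * (2 * (m + 1) / (m + 2) - κ)) * Q

end

end Vale.Agent.P076N
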