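import Mathlib

/-!
# P076N : the numeric layer (notes/P076/alln.md, sections 3 and 5).  Unit: `log D`.
-/

set_option linter.all false

open Finset

namespace Vale.Agent.P076N

noncomputable section

/-- chains of elementary links -/
inductive Path (El : ℕ → ℕ → ℝ → Prop) : ℕ → ℕ → ℝ → Prop
  | nil (i : ℕ) : Path El i i 0
  | snoc {i j l : ℕ} {z z' : ℝ} : Path El i j z → El j l z' → Path El i l (z + z')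

/-- a jump: parent block `(k, J, W)`, level `j`, width `w` -/
structure Jm where
  k : ℕ
  J : ℕ
  W : ℕ
  j : ℕ
  w : ℕ

/-- numeric data -/
structure Dat where
  a : ℕ → ℝ
  g : ℕ → ℝ
  φ : ℕ → ℝ
  nar : ℕ → ℕ → ℕ → Prop
  El : ℕ → ℕ → ℝ → Prop
  cost : Jm → ℕ → ℝ

/-- parameters: `o` the error, `E` the finite set of tolerances for `lw` and `ring` -/
structure Par where
  K : ℕ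
  Tr : Finset (ℕ × ℕ × ℕ)
  o : ℝ
  E : Finset ℝ

/-- the constants that come from the tube lemmas -/
structure Orc where
  Ml : ℝ → ℕ
  M : ℝ → ℝ → ℕ
  y₀ : ℝ → ℝ → ℕ
  er : ℝ → ℝ → ℝ
  pos : ∀ γ σ, 0 < er γ σ
  one : ∀ γ σ, 1 ≤ M γ σ

def Par.Pos (π : Par) : Prop := 1 ≤ π.K ∧ 0 < π.o ∧ ∀ e ∈ π.E, 0 < e

namespace Dat

variable (d : Dat)

def A (i j : ℕ) : ℝ := ∑ l ∈ Ico i j, d.a l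

def G (i j : ℕ) : ℝ := ∑ l ∈ Ico i j, d.g l

def Φ (i j : ℕ) : ℝ := ∑ l ∈ Ico i j, d.φ l

/-- active blocks: the whole range (rank `m`) and the narrow triples -/
def Act (m : ℕ) (π : Par) (k J W : ℕ) : Prop :=
  (k = m ∧ J = 0 ∧ W = π.K) ∨ ((k, J, W) ∈ π.Tr ∧ k < m ∧ 1 ≤ W ∧ J + W ≤ π.K ∧ d.nar k J W)

/-- a broad level inside an active block -/
def Jp (m : ℕ) (π : Par) (s : Jm) : Prop := d.Act m π s.k s.J s.W ∧ 1 ≤ s.k ∧ (s.k - 1, s.j, s.w) ∈ π.Tr ∧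
  ¬ d.nar (s.k - 1) s.j s.w ∧ s.J ≤ s.j ∧ s.j + s.w < s.J + s.W ∧ 1 ≤ s.w

end Dat

/-- **the numeric facts**; `gr` = the roots form a graph (otherwise only a window graph) -/
structure Ax (m : ℕ) (gr : Prop) (O : Orc) (π : Par) (d : Dat) : Prop where
  a0 : ∀ i < π.K, 0 ≤ d.a i ∧ d.a i ≤ 1 + m / 2
  g0 : ∀ i < π.K, 0 ≤ d.g i ∧ d.φ i ≤ d.g i + π.o
  ty : ∀ k J W i, d.Act m π k J W → J ≤ i → i < J + W → d.g i ≤ k + π.o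
  lt : ∀ i j z, d.El i j z → i < j ∧ j ≤ π.K
  std : ∀ i < π.K, d.El i (i + 1) (d.φ i + 2 * d.a i + π.o)
  c0 : ∀ s x, d.Jp m π s → 2 * s.w ≤ x → s.j + x ≤ s.J + s.W → d.cost s x ≤ 2 * (m + 1) * x + π.o
  jmp : ∀ s x, d.Jp m π s → 2 * s.w ≤ x → s.j + 2 * x ≤ s.J + s.W →
    d.El s.j (s.j + 2 * x) (d.cost s x + 2 * d.A (s.j + x) (s.j + 2 * x) + π.o)
  lw : ∀ ε ∈ π.E, ∀ s x x', d.Jp m π s → 2 * s.w ≤ x → O.Ml ε * s.w ≤ x → x ≤ x' → x' ≤ 2 * x → s.j + x' ≤ s.J + s.W →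
    d.cost s x' ≤ d.cost s x + 2 * (s.k + 1) * d.A (s.j + x) (s.j + x') + ε * x
  ring : ∀ γ ∈ π.E, ∀ σ ∈ π.E, ∀ s x₀ y (κ : ℝ), d.Jp m π s → 2 * s.w ≤ x₀ → O.y₀ γ σ ≤ y → (s.w : ℝ) ≤ O.er γ σ * y →
    O.M γ σ * y ≤ x₀ → s.j + x₀ + O.M γ σ * y ≤ s.J + s.W → γ ≤ κ → κ ≤ 1 - γ →
    (∀ x x', x₀ ≤ x → x ≤ x' → x' ≤ x₀ + O.M γ σ * y →
      |d.A (s.j + x) (s.j + x') - (1 - κ) * ((x' : ℝ) - x)| ≤ O.er γ σ * y ∧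
      2 * (s.k + 1) * (1 - κ) * ((x' : ℝ) - x) - O.er γ σ * y ≤ d.cost s x' - d.cost s x) →
    σ * y ≤ d.G s.j (s.j + 2 * y) → False
  pj : ∀ s x₀ x₁ x₂ (g : ℝ), d.Jp m π s → s.k = m → 2 * s.w ≤ x₀ → x₀ ≤ x₁ → x₁ < x₂ → x₂ ≤ 2 * x₀ →
    s.j + x₂ ≤ π.K → 0 ≤ g → d.A (s.j + x₁) (s.j + x₂) ≤ g * ((x₂ : ℝ) - x₁) →
    d.G s.j (s.j + 2 * (x₁ - x₀)) ≤ 2 * m * ((x₂ : ℝ) - x₀) - (d.cost s x₂ - d.cost s x₀) +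
      2 * d.A (s.j + x₀) (s.j + x₂) + 2 * m * g * ((x₁ : ℝ) - x₀) + π.o
  bp : ∀ s x, d.Jp m π s → s.k = m → 2 * s.w ≤ x → s.j + 2 * x ≤ π.K →
    d.cost s x ≤ d.Φ s.j (s.j + 2 * x) + 2 * d.A s.j (s.j + 2 * x) + π.o
  gp : ∀ ρ z, (gr ∧ ρ ≤ π.K) ∨ 2 * ρ ≤ π.K ∨ ρ = π.K → Path d.El 0 ρ z → (ρ : ℝ) ≤ z + π.o
  gb : ∀ s x z, gr → d.Jp m π s → s.k = m → 2 * s.w ≤ x → s.j + x ≤ π.K → Path d.El 0 s.j z →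
    (s.j : ℝ) + 2 * x ≤ z + d.cost s x + π.o

/-- **[N1]** -/
def N1 (m : ℕ) : Prop := ∀ (O : Orc) (ε : ℝ), 0 < ε → ∃ π : Par, π.Pos ∧ 1 ≤ ε * π.K ∧ ∀ d, Ax m True O π d →
  (π.K : ℝ) / (m + 1) - ε * π.K ≤ d.A 0 π.K

/-- **[N2]** -/
def N2 (m : ℕ) : Prop := ∀ (O : Orc) (η' : ℝ), 0 < η' → ∃ θ : ℝ, 0 < θ ∧ ∀ ε : ℝ, 0 < ε → ∃ η : ℝ, 0 < η ∧
  ∃ π : Par, π.Pos ∧ 1 ≤ ε * π.K ∧ ∀ d, Ax m True O π d → (π.K : ℝ) / (m + 1) - ε * π.K ≤ d.A 0 π.K ∧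
    (d.A 0 π.K ≤ (π.K : ℝ) / (m + 1) + η * π.K → ∃ (w K' : ℕ) (z : ℝ), θ * π.K ≤ w ∧ w ≤ K' ∧ K' ≤ π.K ∧
      (1 - η') * π.K ≤ K' ∧ Path d.El w K' z ∧ d.Φ 0 w + 2 * d.A 0 w + z ≤ K' + ε * π.K ∧
      ∀ y ≤ w, ((m : ℝ) - 1) * y - ε * π.K ≤ d.G 0 y)

/-- **[N3]** -/
def N3 (m : ℕ) : Prop := ∀ (O : Orc) (ε : ℝ), 0 < ε → ∃ η : ℝ, 0 < η ∧ ∃ (π : Par) (a₀ : ℕ), π.Pos ∧
  1 ≤ ε * π.K ∧ π.K = (m + 2) * a₀ ∧ ∀ d, Ax m False O π d → (a₀ : ℝ) - ε * π.K ≤ d.A 0 π.K ∧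
    (d.A 0 π.K ≤ a₀ + η * π.K → (π.K : ℝ) - ε * π.K ≤ d.Φ 0 a₀ + 2 * d.A 0 a₀ ∧
      (∀ y ≤ a₀, (m : ℝ) * y - ε * π.K ≤ d.G 0 y) ∧
      ∃ z, Path d.El a₀ π.K z ∧ d.Φ 0 a₀ + 2 * d.A 0 a₀ + z ≤ π.K + ε * π.K)

end

end Vale.Agent.P076N
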