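import Vale.Agent.P076N.Amp
import Vale.Agent.P127.Stk.Lib

/-!
# P076N : abstract tube lemmas (notes/P076/alln.md, section 4).  All scales are in bits.
-/

set_option linter.all false

open Finset Vale.Agent.P127 Vale.Agent.P127.Stk
open scoped RealInnerProductSpace

namespace Vale.Agent.P076N

noncomputable section

/-- the cell of side `ρ` -/
def flv {k : ℕ} (ρ : ℝ) (x : Vc k) : Zv k := fun l => ⌊x l / ρ⌋

/-- a random point `z (ξ ω)` of space time with a random velocity `u ω` and side information `sd (ξ ω)` -/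
structure TSys (Ω : Type) [Fintype Ω] (k : ℕ) where
  P : Law Ω
  α : Type
  γ : Type
  ξ : Ω → α
  z : α → Vc k × ℝ
  sd : α → γ
  u : Ω → Vc k

namespace TSys

variable {Ω : Type} [Fintype Ω] {k : ℕ} (S : TSys Ω k)

def x (ω : Ω) : Vc k := (S.z (S.ξ ω)).1

def t (ω : Ω) : ℝ := (S.z (S.ξ ω)).2

def side (ω : Ω) : S.γ := S.sd (S.ξ ω)

/-- time at the scale `2 ^ r` -/
def tm (r : ℕ) (ω : Ω) : ℤ := ⌊S.t ω / 2 ^ r⌋

/-- cell of side `2 ^ r` -/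
def cel (r : ℕ) (ω : Ω) : Zv k × ℤ := (flv (2 ^ r) (S.x ω), S.tm r ω)

/-- tube of width `2 ^ r` -/
def tub (r : ℕ) (ω : Ω) : Vc k × Zv k := (S.u ω, flv (2 ^ r) (S.x ω - S.t ω • S.u ω))

/-- velocity at the resolution `2 ^ (-y)` -/
def dir (y : ℕ) (ω : Ω) : Zv k := flv (2 ^ y)⁻¹ (S.u ω)

/-- entropy of the cells between the scales `p` and `q` -/
def hB (p q : ℕ) : ℝ := hc S.P (S.cel p) fun ω => (S.cel q ω, S.side ω)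

/-- entropy of the time digits between the scales `a` and `b` on the tubes of width `2 ^ p` -/
def hT (p a b : ℕ) : ℝ := hc S.P (S.tm a) fun ω => (S.tm b ω, S.tub p ω, S.side ω)

def Bnd (Cu : ℝ) : Prop := ∀ ω, 0 < S.P.w ω → ‖S.u ω‖ ≤ Cu

/-- the velocities avoid the strips of width `2 ^ (-w)` around `f`-flats -/
def Brd (f w : ℕ) (β : ℝ) : Prop :=
  ∀ pl : S.α → Pl k, prE S.P (fun ω => InS (pl (S.ξ ω)) f (2 ^ w)⁻¹ (S.u ω)) ≤ β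

end TSys

/-- **[LW]** Loomis-Whitney (multilinear Kakeya) for `f + 2` directions -/
def StLW (k : ℕ) : Prop := ∀ f : ℕ, f + 1 ≤ k → ∀ Cu ε : ℝ, 0 < ε → ∃ ε' : ℝ, 0 < ε' ∧ ∃ n₀ : ℕ,
  ∀ (w p q : ℕ) (Ω : Type) [Fintype Ω] (S : TSys Ω k), p + n₀ ≤ q → (w : ℝ) ≤ ε' * ((q : ℝ) - p) →
    S.Bnd Cu → S.Brd f w ε' → (f + 2) * S.hT p p q - ε * ((q : ℝ) - p) ≤ S.hB p q

/-- **[PJ]** pair counting -/
def StPJ (k : ℕ) : Prop := ∀ Cu : ℝ, ∃ C : ℝ, 0 ≤ C ∧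
  ∀ (p a b : ℕ) (g : ℝ) (Ω : Type) [Fintype Ω] (S : TSys Ω k), p ≤ a → a < b → 0 ≤ g → S.Bnd Cu →
    (1 - g) * ((b : ℝ) - a) * Real.log 2 ≤ S.hT p a b →
    hc S.P (S.dir (a - p)) S.ξ ≤ S.hB p b - S.hT p p b +
      (g + C / ((b : ℝ) - a)) * (k * ((a : ℝ) - p) * Real.log 2 + C) + C

open Classical in
/-- **[RING]** (the bound for the cells is in counting form) no fractional equality case of Loomis-Whitney with many directions -/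
def StRING (k : ℕ) : Prop := ∀ γ σ Cu : ℝ, 0 < γ → 0 < σ → ∃ (M y₀ : ℕ) (ε : ℝ), 1 ≤ M ∧ 0 < ε ∧
  ∀ (y p w : ℕ) (κ : ℝ) (Ω : Type) [Fintype Ω] (S : TSys Ω k), y₀ ≤ y → (w : ℝ) ≤ ε * y →
    γ ≤ κ → κ ≤ 1 - γ → S.Bnd Cu → S.Brd (k - 1) w ε →
    κ * (M * y) * Real.log 2 - ε * y ≤ S.hT p p (p + M * y) →
    (∀ a b : ℕ, p ≤ a → a ≤ b → b ≤ p + M * y → ∀ ω, 0 < S.P.w ω →
      (#((univ.filter fun ω' => 0 < S.P.w ω' ∧ S.cel b ω' = S.cel b ω ∧ S.side ω' = S.side ω).image (S.cel a)) : ℝ) ≤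
        Real.exp ((k + 1) * κ * ((b : ℝ) - a) * Real.log 2 + ε * y)) →
    σ * y ≤ hc S.P (S.dir y) S.ξ → False

open Classical in
/-- **[PLAN]** an `n`-dimensional set in `ℝ^(n+1)` with full lines in many directions lies in plates -/
def StPLAN (n : ℕ) : Prop := ∀ c θ Cu Cz : ℝ, 0 < c → 0 < θ → ∃ ε : ℝ, 0 < ε ∧ ∃ K₀ : ℕ,
  ∀ (K w : ℕ) (e : ℝ) (Ω : Type) [Fintype Ω] (S : TSys Ω n) (β : Type) (Z : Ω → β), K₀ ≤ K →
    θ * K ≤ w → w ≤ K → 0 ≤ e → e ≤ ε * K → S.Bnd Cu →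
    (∀ ω ω', 0 < S.P.w ω → 0 < S.P.w ω' → S.side ω = S.side ω' →
      ‖S.x ω - S.x ω'‖ ≤ Cz * 2 ^ K ∧ |S.t ω - S.t ω'| ≤ Cz * 2 ^ K) →
    (∀ s, (#((univ.filter fun ω => 0 < S.P.w ω ∧ S.side ω = s).image Z) : ℝ) ≤ 2 ^ (Cz * K)) →
    hc S.P (S.cel 0) S.side ≤ n * K * Real.log 2 + e →
    K * Real.log 2 - e ≤ hc S.P (S.tm 0) (fun ω => (S.tub 0 ω, S.side ω)) →
    (∀ y ≤ w, ∀ a q, S.P.pr (fun ω => (S.ξ ω, S.dir y ω)) (a, q) ≤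
      Real.exp e / 2 ^ ((n - 1) * y) * S.P.pr S.ξ a) →
    ∃ (s : S.γ) (ν : Vc n) (v b : ℝ), ‖ν‖ = 1 ∧ hc S.P Z S.side - c * K ≤
      Real.log #((univ.filter fun ω => 0 < S.P.w ω ∧ S.side ω = s ∧
        |⟪ν, S.u ω⟫ - v| ≤ 2 ^ (c * K) / 2 ^ K ∧ |⟪ν, S.x ω⟫ - v * S.t ω - b| ≤ 2 ^ (c * K)).image Z)

end

end Vale.Agent.P076N
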