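import Vale.Agent.P076N.Fun
import Vale.Agent.P076N.Tube
import Vale.Agent.P076N.Num

/-!
# P076N : the blocks and the top assembly (notes/P076/alln.md)
-/

set_option linter.all false

namespace Vale.Agent.P076N

/-- the blocks; each field is proved by one block owner -/
structure Blocks : Prop where
  /-- h64, section 2 -/
  vs : ∀ m, StVS m
  /-- h64, section 5 -/
  n1 : ∀ m, 2 ≤ m → N1 m
  n2 : ∀ m, 3 ≤ m → N2 m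
  n3 : ∀ m, 2 ≤ m → N3 m
  /-- h89, section 4 -/
  lw : ∀ k, StLW k
  pj : ∀ k, StPJ k
  ring : ∀ k, 1 ≤ k → StLW k → StRING k
  plan : ∀ n, 2 ≤ n → StLW n → StPLAN n
  /-- h83, sections 3 and 6 -/
  at1 : ∀ m, 2 ≤ m → StVS m → (∀ k, StLW k) → (∀ k, StPJ k) → (∀ k, 1 ≤ k → StRING k) → N1 m → AT1 m
  at2 : ∀ m, 3 ≤ m → StVS m → (∀ k, StLW k) → (∀ k, StPJ k) → (∀ k, 1 ≤ k → StRING k) → StPLAN m → N2 m → AT2 m
  at3 : ∀ m, 2 ≤ m → StVS m → (∀ k, StLW k) → (∀ k, StPJ k) → (∀ k, 1 ≤ k → StRING k) → N3 m → AT3 m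
  at4 : ∀ m, 2 ≤ m → StVS m → (∀ k, StLW k) → (∀ k, StPJ k) → (∀ k, 1 ≤ k → StRING k) → N3 m → AT4 m
  /-- h13, h87, sections 1 and 9 -/
  t1 : ∀ m, 2 ≤ m → AT1 m → T1 m
  t3 : ∀ m, 2 ≤ m → AT3 m → T3 m
  t4 : ∀ m, 2 ≤ m → AT4 m → T4 m
  asm : ∀ n, 3 ≤ n → AT2 n → TS n → SS n
  /-- h57, section 7 -/
  key : ∀ d, 2 ≤ d → T1 d → T3 d → T4 d → KEY d
  /-- h25, section 8 -/
  slab : ∀ d, 2 ≤ d → KEY d → TS (d + 1)

theorem Blocks.ss (h : Blocks) (n : ℕ) (hn : 3 ≤ n) : SS n := by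
  obtain ⟨d, rfl⟩ : ∃ d, n = d + 1 := ⟨n - 1, by omega⟩
  have hd : 2 ≤ d := by omega
  have r : ∀ k, 1 ≤ k → StRING k := fun k hk => h.ring k hk (h.lw k)
  exact h.asm _ hn (h.at2 _ hn (h.vs _) h.lw h.pj r (h.plan _ (by omega) (h.lw _)) (h.n2 _ hn))
    (h.slab d hd (h.key d hd (h.t1 d hd (h.at1 d hd (h.vs _) h.lw h.pj r (h.n1 d hd)))
      (h.t3 d hd (h.at3 d hd (h.vs _) h.lw h.pj r (h.n3 d hd)))
      (h.t4 d hd (h.at4 d hd (h.vs _) h.lw h.pj r (h.n3 d hd)))))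

end Vale.Agent.P076N
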