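import Vale.Agent.P076N.Top
import Vale.Agent.P076.Main.Fin

/-!
# P076N : the endpoint theorem in every dimension `n ≥ 2`
-/

set_option linter.all false

open MeasureTheory

namespace Vale.Agent.P076N

open Vale.Agent.P076

theorem endpoint_all (n : ℕ) (hn : 2 ≤ n) (f g : (Fin n → ℝ) → ℂ) (hfg : IsFourierPair f g)
    (hf : Integrable (fun ξ => (1 + nrm ξ ^ 2) ^ critExp n * ‖g ξ‖ ^ 2)) :
    H791.ConvergesAE f g ∧ H791.ConvergesStrongly f g := by
  rcases hn.eq_or_lt with h | h
  · subst h
    exact Main.endpoint f g hfg hf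
  · exact high_of_key KEY.key n h f g hfg hf

end Vale.Agent.P076N
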