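import Vale.Agent.P076.Bdl.All

/-!
# P076N : statements for functions (notes/P076/alln.md, sections 7, 8, 9)
-/

set_option linter.all false

open MeasureTheory Finset
open scoped RealInnerProductSpace

namespace Vale.Agent.P076N

open Vale.Agent.P076

noncomputable section

variable {m : ℕ}

/-- the solution: `Uu G p = ∫ e(x·η - t |η|²) G η` at `p = (x, t)` -/
def Uu (G : E m → ℂ) (p : E m × ℝ) : ℂ := evo G p.1 p.2 0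

/-- the energy -/
def en (G : E m → ℂ) : ℝ := ∫ η, ‖G η‖ ^ 2

/-- bounded measurable data in the ball of radius `r` -/
structure Bd (r : ℝ) (G : E m → ℂ) : Prop where
  meas : Measurable G
  bdd : ∃ b : ℝ, ∀ η, ‖G η‖ ≤ b
  supp : ∀ η, G η ≠ 0 → ‖η‖ ≤ r

open Classical in
/-- graph condition: at most `B` points over each unit ball -/
def Gph (B : ℝ) (A : Finset (E m × ℝ)) : Prop := ∀ y : E m, (#(A.filter fun p => ‖p.1 - y‖ ≤ 1) : ℝ) ≤ B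

open Classical in
/-- graph condition in each time window of length `ℓ` -/
def WG (B ℓ : ℝ) (A : Finset (E m × ℝ)) : Prop :=
  ∀ (y : E m) (s : ℝ), (#(A.filter fun p => ‖p.1 - y‖ ≤ 1 ∧ |p.2 - s| ≤ ℓ) : ℝ) ≤ B

/-- times in `[0, T]`, amplitude at least `α` -/
def Big (G : E m → ℂ) (A : Finset (E m × ℝ)) (α T : ℝ) : Prop :=
  ∀ p ∈ A, 0 ≤ p.2 ∧ p.2 ≤ T ∧ α ≤ ‖Uu G p‖

/-- the cube of side `τ` -/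
def cub (τ : ℝ) (p : E m × ℝ) : (Fin m → ℤ) × ℤ := (fun l => ⌊p.1 l / τ⌋, ⌊p.2 / τ⌋)

/-- **[T1]** the lossy bound for graphs (Du-Zhang), no spatial restriction -/
def T1 (m : ℕ) : Prop := ∀ ε : ℝ, 0 < ε → ∀ B : ℝ, ∃ C : ℝ, ∀ (R : ℝ) (G : E m → ℂ) (A : Finset (E m × ℝ)) (α : ℝ),
  1 ≤ R → 0 ≤ α → Bd 4 G → Gph B A → Big G A α R → α ^ 2 * #A ≤ C * R ^ ((m : ℝ) / (m + 1) + ε) * en G

open Classical in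
/-- **[T3]** window graphs: lossy bound; power gain unless the set is full and has the profile of a lattice -/
def T3 (d : ℕ) : Prop := ∀ η : ℝ, 0 < η → ∃ κ : ℝ, 0 < κ ∧ ∀ B : ℝ, ∃ C : ℝ,
  ∀ (ℓ : ℝ) (G : E d → ℂ) (A : Finset (E d × ℝ)) (α : ℝ), 1 ≤ ℓ → 0 ≤ α → Bd 4 G → WG B ℓ A → Big G A α (ℓ ^ 2) →
    α ^ 2 * #A ≤ C * ℓ ^ (2 * ((d : ℝ) + 1) / (d + 2) + η) * en G ∧
    (((#A : ℝ) ≤ ℓ ^ (2 * (d : ℝ) + 1 - η) ∨ ∃ τ : ℝ, 1 ≤ τ ∧ (#(A.image (cub τ)) : ℝ) * ℓ ^ η *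
        ((1 + τ / ℓ ^ (1 / ((d : ℝ) + 2))) ^ d * (1 + τ / (ℓ ^ (1 / ((d : ℝ) + 2))) ^ 2)) ≤ #A) →
      α ^ 2 * #A ≤ C * ℓ ^ (2 * ((d : ℝ) + 1) / (d + 2) - κ) * en G)

/-- the frequency cell of side `1 / M` -/
def cell (M : ℝ) (η : E m) : Fin m → ℤ := fun l => ⌊M * η l⌋

open Classical in
/-- **[T4]** window graphs, few frequency cells (side `2 ^ (-j)`) in each cube of side `ρ`: power gain -/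
def T4 (d : ℕ) : Prop := ∀ θ b : ℝ, 0 < θ → 0 < b → ∃ κ : ℝ, 0 < κ ∧ ∀ B : ℝ, ∃ C : ℝ,
  ∀ (ℓ ρ : ℝ) (j : ℕ) (G : E d → ℂ) (A : Finset (E d × ℝ)) (α : ℝ) (S : (Fin d → ℤ) × ℤ → Finset (Fin d → ℤ)),
    1 ≤ ℓ → 0 ≤ α → Bd 4 G → WG B ℓ A → ℓ ^ θ ≤ 2 ^ j → (2 : ℝ) ^ j ≤ ℓ ^ (1 / (2 * ((d : ℝ) + 2))) →
    ((2 : ℝ) ^ j) ^ 3 ≤ ρ → (∀ q, (#(S q) : ℝ) ≤ ℓ ^ (-b) * ((2 : ℝ) ^ j) ^ d) →
    (∀ p ∈ A, 0 ≤ p.2 ∧ p.2 ≤ ℓ ^ 2 ∧ (∀ p' : E d × ℝ, ‖p'.1 - p.1‖ ≤ ρ / 4 → |p'.2 - p.2| ≤ ρ / 4 → cub ρ p' = cub ρ p) ∧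
      α ≤ ‖Uu (fun η => if cell (2 ^ j) η ∈ S (cub ρ p) then G η else 0) p‖) →
    α ^ 2 * #A ≤ C * ℓ ^ (2 * ((d : ℝ) + 1) / (d + 2) - κ) * en G

/-- the energy in the ball of radius `ρ` around `p.1` at the time `p.2` -/
def lE (G : E m → ℂ) (p : E m × ℝ) (ρ : ℝ) : ℝ := ∫ x in Metric.ball p.1 ρ, ‖Uu G (x, p.2)‖ ^ 2

/-- the corner of the cube `q` of side `τ` -/
def cor (τ : ℝ) (q : (Fin m → ℤ) × ℤ) : E m × ℝ := (WithLp.toLp 2 fun l => τ * q.1 l, τ * q.2)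

open Classical in
/-- **[KEY]** the lossless count in the cubes of side `ℓ ^ (2 - η)`; `φ` bounds the measure of the directions
that are present near each cube -/
def KEY (d : ℕ) : Prop := ∃ η κ δ : ℝ, 0 < η ∧ η ≤ 1 / 2 ∧ 0 < κ ∧ 0 < δ ∧ ∀ B : ℝ, ∃ C : ℝ,
  ∀ (ℓ : ℝ) (g : E d → ℂ) (A : Finset (E d × ℝ)) (α φ : ℝ), 1 ≤ ℓ → 0 < α → Bd 3 g →
    WG B ℓ A → Big g A α (ℓ ^ 2) → (∀ p ∈ A, ‖p.1‖ ≤ ℓ ^ 2) →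
    (∀ p ∈ A, ∃ h : E d → ℂ, Bd 3 h ∧ en h ≤ ℓ ^ (20 * d) * α ^ 2 ∧
      (volume : Measure (E d)).real (Metric.thickening (ℓ ^ (-(2 * η))) (Function.support h)) ≤ φ ∧
      lE (g - h) (cor (ℓ ^ (2 - η)) (cub (ℓ ^ (2 - η)) p)) (100 * d * ℓ ^ (2 - η)) ≤ (ℓ ^ (10 * d))⁻¹ * α ^ 2) →
    ∃ A' ⊆ A, (#(A \ A') : ℝ) ≤ C * ℓ ^ (2 * ((d : ℝ) + 1) / (d + 2) - κ) * (en g / α ^ 2) ∧
      ∀ q, (#(A'.filter fun p => cub (ℓ ^ (2 - η)) p = q) : ℝ) ≤ C * φ ^ δ * (ℓ ^ (2 - η)) ^ (d + 1) *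
        (lE g (cor (ℓ ^ (2 - η)) q) (100 * d * ℓ ^ (2 - η)) / ((ℓ ^ (2 - η)) ^ d * α ^ 2)) ^ (((d : ℝ) + 2) / d)

/-- **[TS]** thick slab, lossless, with a gain for small sets -/
def TS (n : ℕ) : Prop := ∃ c δ : ℝ, 0 < c ∧ 0 < δ ∧ ∀ B : ℝ, ∃ C : ℝ,
  ∀ (R : ℝ) (G : E n → ℂ) (A : Finset (E n × ℝ)) (α b : ℝ) (ν : E n), 1 ≤ R → 0 ≤ α → Bd 2 G → Gph B A →
    Big G A α R → (∀ p ∈ A, ‖p.1‖ ≤ R) → ‖ν‖ = 1 → (∀ η, G η ≠ 0 → |⟪ν, η⟫ - b| ≤ R ^ (c - 1 / 2)) →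
    α ^ 2 * #A ≤ C * R ^ ((n : ℝ) / (n + 1)) * ((#A : ℝ) / R ^ n) ^ δ * en G

/-- **[SS]** the single scale bound, lossless, with a gain for small sets -/
def SS (n : ℕ) : Prop := ∃ δ : ℝ, 0 < δ ∧ ∀ B : ℝ, ∃ C : ℝ,
  ∀ (R : ℝ) (G : E n → ℂ) (A : Finset (E n × ℝ)) (α : ℝ), 1 ≤ R → 0 ≤ α → Bd 1 G → Gph B A →
    Big G A α R → (∀ p ∈ A, ‖p.1‖ ≤ R) →
    α ^ 2 * #A ≤ C * R ^ ((n : ℝ) / (n + 1)) * ((#A : ℝ) / R ^ n) ^ δ * en G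

end

end Vale.Agent.P076N
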