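import Vale.Agent.P076N.Fun
import Vale.Agent.P076T.Ker
import Vale.Agent.P076.H618.Conv

/-!
# P076N : from the single scale bound to the lattice form
-/

set_option linter.all false

open MeasureTheory Finset

namespace Vale.Agent.P076N

open Vale.Agent.P076 Vale.Agent.P076.H618

theorem slat_of_ss (n : ℕ) (h : SS n) : SLat n (critExp n) := by
  classical
  obtain ⟨δ, hδ, h⟩ := h
  obtain ⟨C, h⟩ := h 1
  set L : ℝ := n + 3 with hL
  have hn : (0 : ℝ) ≤ n := Nat.cast_nonneg n
  have hL0 : 0 < L := by positivity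
  have hL1 : 1 ≤ L ^ 2 := by nlinarith
  refine ⟨max C 0 * (L ^ 2) ^ ((n : ℝ) / (n + 1)) * L ^ n, δ, hδ, fun m G X t α hα hG hP => ?_⟩
  have h2 : (1 : ℝ) ≤ 2 ^ m := one_le_pow₀ one_le_two
  set P : (Fin n → ℤ) → E n × ℝ := fun x => (L • lp x, L ^ 2 * t x) with hPd
  have hsep : ∀ x y, ‖(P x).1 - (P y).1‖ ≤ 2 → x = y := by
    intro x y hxy
    funext i
    have a := (P076T.abs_apply_le ((P x).1 - (P y).1) i).trans hxy
    have e : ((P x).1 - (P y).1) i = L * ((x i - y i : ℤ) : ℝ) := by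
      simp only [hPd, PiLp.sub_apply, PiLp.smul_apply, smul_eq_mul, lp_apply]
      push_cast
      ring
    rw [e, abs_mul, abs_of_pos hL0, ← Int.cast_abs] at a
    by_contra hne
    have b : (1 : ℤ) ≤ |x i - y i| := Int.one_le_abs (sub_ne_zero.2 hne)
    have c : (1 : ℝ) ≤ ((|x i - y i| : ℤ) : ℝ) := by exact_mod_cast b
    nlinarith
  have hinj : Function.Injective P := fun x y hxy => hsep x y (by rw [hxy]; simp)
  have k := h (L ^ 2 * 2 ^ m) (dil L G) (X.image P) α (by nlinarith) hα ?_ ?_ ?_ ?_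
  · rw [card_image_of_injective _ hinj] at k
    have e1 : en (dil L G) = L ^ n * ∫ η, ‖G η‖ ^ 2 := energy_dil hL0 G
    have hI : 0 ≤ ∫ η, ‖G η‖ ^ 2 := integral_nonneg fun η => by positivity
    have e2 : (L ^ 2 * 2 ^ m) ^ ((n : ℝ) / (n + 1)) =
        (L ^ 2) ^ ((n : ℝ) / (n + 1)) * (2 ^ m : ℝ) ^ (2 * critExp n) := by
      rw [Real.mul_rpow (by positivity) (by positivity)]
      congr 2
      unfold critExp
      field_simp
    have e3 : ((#X : ℝ) / (L ^ 2 * 2 ^ m) ^ n) ^ δ ≤ ((#X : ℝ) / (2 ^ m) ^ n) ^ δ := by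
      gcongr
      nlinarith
    rw [e1, e2] at k
    refine k.trans ?_
    calc _ ≤ max C 0 * ((L ^ 2) ^ ((n : ℝ) / (n + 1)) * (2 ^ m : ℝ) ^ (2 * critExp n)) *
          ((#X : ℝ) / (2 ^ m) ^ n) ^ δ * (L ^ n * ∫ η, ‖G η‖ ^ 2) := by
          have := le_max_left C 0
          have := le_max_right C 0
          gcongr
      _ = _ := by ring
  · obtain ⟨b, hb⟩ := hG.bdd
    refine ⟨?_, ⟨L ^ n * b, fun η => ?_⟩, fun η hη => ?_⟩
    · have := hG.meas
      unfold dil
      fun_prop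
    · rw [dil, norm_mul, Complex.norm_real, Real.norm_of_nonneg (by positivity)]
      exact mul_le_mul_of_nonneg_left (hb _) (by positivity)
    · have a := P076T.norm_le_mul (hG.supp (L • η) (right_ne_zero_of_mul hη))
      rw [norm_smul, Real.norm_of_nonneg hL0.le] at a
      nlinarith [norm_nonneg η]
  · intro y
    have : #((X.image P).filter fun p => ‖p.1 - y‖ ≤ 1) ≤ 1 := by
      refine card_le_one.2 fun p hp q hq => ?_
      obtain ⟨hp1, hp2⟩ := mem_filter.1 hp
      obtain ⟨hq1, hq2⟩ := mem_filter.1 hq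
      obtain ⟨x, -, rfl⟩ := mem_image.1 hp1
      obtain ⟨z, -, rfl⟩ := mem_image.1 hq1
      refine congrArg P (hsep x z ?_)
      have := norm_sub_le_norm_sub_add_norm_sub (P x).1 y (P z).1
      rw [norm_sub_rev y] at this
      linarith
    exact_mod_cast this
  · intro p hp
    obtain ⟨x, hx, rfl⟩ := mem_image.1 hp
    refine ⟨mul_nonneg (by positivity) (hP.t0 x hx), mul_le_mul_of_nonneg_left (hP.tR x hx) (by positivity), ?_⟩
    have a := hP.big x hx
    simp only [Uu, hPd]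
    rwa [evo_dil hL0, smul_smul, inv_mul_cancel₀ hL0.ne', one_smul, mul_div_cancel_left₀ _ (by positivity)]
  · intro p hp
    obtain ⟨x, hx, rfl⟩ := mem_image.1 hp
    have a := P076T.norm_le_mul (v := lp x) (hP.pos x hx)
    simp only [hPd]
    rw [norm_smul, Real.norm_of_nonneg hL0.le]
    calc L * ‖lp x‖ ≤ L * (L * 2 ^ m) := mul_le_mul_of_nonneg_left (a.trans (by gcongr; linarith)) hL0.le
      _ = _ := by ring

end Vale.Agent.P076N
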