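import Vale.Agent.P076N.Slat
import Vale.Agent.P076N.VS.Vs
import Vale.Agent.P076N.NUM.Fin
import Vale.Agent.P076N.TB.All
import Vale.Agent.P076N.RG.All
import Vale.Agent.P076N.FL.Fin
import Vale.Agent.P076N.BR.T4
import Vale.Agent.P076N.A.Br
import Vale.Agent.P076N.SL.Top
import Vale.Agent.P076N.KEY.All

/-!
# P076N : the endpoint theorem in dimension `n ≥ 3` from the block `KEY`
-/

set_option linter.all false

open MeasureTheory

namespace Vale.Agent.P076N

open Vale.Agent.P076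

theorem blocks (hk : ∀ d, 2 ≤ d → T1 d → T3 d → T4 d → KEY d) : Blocks :=
  ⟨vs, NUM.num1, NUM.num2, NUM.num3, TB.stLW, TB.stPJ, RG.ring, TB.stPLAN, FL.fin1, FL.fin2, FL.fin3, FL.fin4,
    fun m _ h => BR.t1 m h, fun m _ h => BR.t3 m h, fun m _ h => BR.t4 m h, A.asm_of BR.ampx, hk, SL.slab⟩

theorem high_of_key (hk : ∀ d, 2 ≤ d → T1 d → T3 d → T4 d → KEY d) (n : ℕ) (hn : 3 ≤ n)
    (f g : (Fin n → ℝ) → ℂ) (hfg : IsFourierPair f g)
    (hf : Integrable (fun ξ => (1 + nrm ξ ^ 2) ^ critExp n * ‖g ξ‖ ^ 2)) :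
    H791.ConvergesAE f g ∧ H791.ConvergesStrongly f g := by
  have h0 : 0 < critExp n := by
    unfold critExp
    have : (0 : ℝ) < n := by exact_mod_cast (by omega : 0 < n)
    positivity
  have h := H618.conv_of_SLat h0 (slat_of_ss n ((blocks hk).ss n hn)) f g hfg hf
  exact ⟨h.convergesAE, h⟩

end Vale.Agent.P076N
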